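import Vale.Agent.P232.Endpoint.KappaCheck

/-!
Boxes of the weighted certificate, part A, checked in the kernel.
-/

namespace Vale.Agent.P232.Kappa

/-- Boxes, part 0. -/
def boxes0 : List Box :=
  [⟨34300000, 34600000, 0, 100000, 1600000, 92200000, 89647000, 243187485, 777666, 106412, 14, 24, 30⟩,
    ⟨34300000, 34600000, 100000, 270000, 1600000, 92200000, 89647000, 243006468, 777718, 181017, 10, 17, 21⟩,
    ⟨34600000, 34800000, 0, 100000, 1600000, 89647000, 87945000, 242670302, 517183, 106430, 14, 24, 30⟩,
    ⟨34600000, 34800000, 100000, 270000, 1600000, 89647000, 87945000, 242489257, 517211, 181045, 10, 17, 21⟩,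
    ⟨34800000, 35000000, 0, 100000, 2000000, 87945000, 86243000, 242154145, 516157, 106443, 14, 24, 30⟩,
    ⟨34800000, 35000000, 100000, 270000, 2000000, 87945000, 86243000, 241973077, 516180, 181068, 10, 17, 21⟩]

lemma box0_0_ok : (⟨34300000, 34600000, 0, 100000, 1600000, 92200000, 89647000, 243187485, 777666, 106412, 14, 24, 30⟩ : Box).check = true := by decide +kernel

lemma box0_1_ok : (⟨34300000, 34600000, 100000, 270000, 1600000, 92200000, 89647000, 243006468, 777718, 181017, 10, 17, 21⟩ : Box).check = true := by decide +kernel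

lemma box0_2_ok : (⟨34600000, 34800000, 0, 100000, 1600000, 89647000, 87945000, 242670302, 517183, 106430, 14, 24, 30⟩ : Box).check = true := by decide +kernel

lemma box0_3_ok : (⟨34600000, 34800000, 100000, 270000, 1600000, 89647000, 87945000, 242489257, 517211, 181045, 10, 17, 21⟩ : Box).check = true := by decide +kernel

lemma box0_4_ok : (⟨34800000, 35000000, 0, 100000, 2000000, 87945000, 86243000, 242154145, 516157, 106443, 14, 24, 30⟩ : Box).check = true := by decide +kernel

lemma box0_5_ok : (⟨34800000, 35000000, 100000, 270000, 2000000, 87945000, 86243000, 241973077, 516180, 181068, 10, 17, 21⟩ : Box).check = true := by decide +kernel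

lemma boxes0_ok : boxes0.all Box.check = true := by
  simp [boxes0, box0_0_ok, box0_1_ok, box0_2_ok, box0_3_ok, box0_4_ok, box0_5_ok]

/-- Boxes, part 1. -/
def boxes1 : List Box :=
  [⟨35000000, 35200000, 0, 100000, 2000000, 87300000, 85628000, 241639025, 515120, 106455, 14, 24, 30⟩,
    ⟨35000000, 35200000, 100000, 270000, 2000000, 87300000, 85628000, 241457938, 515139, 181087, 10, 17, 21⟩,
    ⟨35200000, 35350000, 0, 100000, 2300000, 85628000, 84374000, 241253372, 385653, 106462, 14, 24, 30⟩,
    ⟨35200000, 35350000, 100000, 270000, 2000000, 85628000, 84374000, 241072277, 385661, 181095, 10, 17, 21⟩,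
    ⟨35350000, 35500000, 0, 100000, 2300000, 84374000, 83120000, 240868317, 385055, 106466, 14, 24, 30⟩,
    ⟨35350000, 35500000, 100000, 270000, 2300000, 84374000, 83120000, 240687214, 385063, 181103, 10, 17, 21⟩]

lemma box1_0_ok : (⟨35000000, 35200000, 0, 100000, 2000000, 87300000, 85628000, 241639025, 515120, 106455, 14, 24, 30⟩ : Box).check = true := by decide +kernel

lemma box1_1_ok : (⟨35000000, 35200000, 100000, 270000, 2000000, 87300000, 85628000, 241457938, 515139, 181087, 10, 17, 21⟩ : Box).check = true := by decide +kernel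

lemma box1_2_ok : (⟨35200000, 35350000, 0, 100000, 2300000, 85628000, 84374000, 241253372, 385653, 106462, 14, 24, 30⟩ : Box).check = true := by decide +kernel

lemma box1_3_ok : (⟨35200000, 35350000, 100000, 270000, 2000000, 85628000, 84374000, 241072277, 385661, 181095, 10, 17, 21⟩ : Box).check = true := by decide +kernel

lemma box1_4_ok : (⟨35350000, 35500000, 0, 100000, 2300000, 84374000, 83120000, 240868317, 385055, 106466, 14, 24, 30⟩ : Box).check = true := by decide +kernel

lemma box1_5_ok : (⟨35350000, 35500000, 100000, 270000, 2300000, 84374000, 83120000, 240687214, 385063, 181103, 10, 17, 21⟩ : Box).check = true := by decide +kernel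

lemma boxes1_ok : boxes1.all Box.check = true := by
  simp [boxes1, box1_0_ok, box1_1_ok, box1_2_ok, box1_3_ok, box1_4_ok, box1_5_ok]

end Vale.Agent.P232.Kappa
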