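import Vale.Agent.P232.Endpoint.KappaCheck

/-!
Boxes of the weighted certificate, part B, checked in the kernel.
-/

namespace Vale.Agent.P232.Kappa

/-- Boxes, part 2. -/
def boxes2 : List Box :=
  [⟨35500000, 35640000, 0, 100000, 2300000, 84240000, 83083600, 240509474, 358843, 106469, 14, 24, 30⟩,
    ⟨35500000, 35640000, 100000, 270000, 2300000, 84240000, 83083600, 240328367, 358847, 181107, 10, 17, 21⟩,
    ⟨35640000, 35760000, 0, 100000, 2600000, 83083600, 82092400, 240202314, 307160, 106471, 14, 24, 30⟩,
    ⟨35640000, 35760000, 100000, 270000, 2600000, 83083600, 82092400, 240021204, 307163, 181110, 10, 17, 21⟩,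
    ⟨35760000, 35880000, 0, 100000, 2600000, 82092400, 81101200, 239895544, 306770, 106472, 14, 24, 30⟩,
    ⟨35760000, 35880000, 100000, 270000, 2600000, 82092400, 81101200, 239714435, 306769, 181109, 10, 17, 21⟩]

lemma box2_0_ok : (⟨35500000, 35640000, 0, 100000, 2300000, 84240000, 83083600, 240509474, 358843, 106469, 14, 24, 30⟩ : Box).check = true := by decide +kernel

lemma box2_1_ok : (⟨35500000, 35640000, 100000, 270000, 2300000, 84240000, 83083600, 240328367, 358847, 181107, 10, 17, 21⟩ : Box).check = true := by decide +kernel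

lemma box2_2_ok : (⟨35640000, 35760000, 0, 100000, 2600000, 83083600, 82092400, 240202314, 307160, 106471, 14, 24, 30⟩ : Box).check = true := by decide +kernel

lemma box2_3_ok : (⟨35640000, 35760000, 100000, 270000, 2600000, 83083600, 82092400, 240021204, 307163, 181110, 10, 17, 21⟩ : Box).check = true := by decide +kernel

lemma box2_4_ok : (⟨35760000, 35880000, 0, 100000, 2600000, 82092400, 81101200, 239895544, 306770, 106472, 14, 24, 30⟩ : Box).check = true := by decide +kernel

lemma box2_5_ok : (⟨35760000, 35880000, 100000, 270000, 2600000, 82092400, 81101200, 239714435, 306769, 181109, 10, 17, 21⟩ : Box).check = true := by decide +kernel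

lemma boxes2_ok : boxes2.all Box.check = true := by
  simp [boxes2, box2_0_ok, box2_1_ok, box2_2_ok, box2_3_ok, box2_4_ok, box2_5_ok]

/-- Boxes, part 3. -/
def boxes3 : List Box :=
  [⟨35880000, 36000000, 0, 100000, 3000000, 81101200, 80110000, 239589166, 306378, 106471, 14, 24, 30⟩,
    ⟨35880000, 36000000, 100000, 270000, 3000000, 81101200, 80110000, 239408059, 306376, 181107, 10, 17, 21⟩,
    ⟨36000000, 36120000, 0, 100000, 3000000, 81190000, 80213200, 239283184, 305982, 106469, 14, 24, 30⟩,
    ⟨36000000, 36120000, 100000, 790000, 3000000, 81190000, 80213200, 238547280, 305964, 735904, 10, 17, 21⟩,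
    ⟨36120000, 36250000, 0, 100000, 3000000, 80213200, 79155000, 238952151, 331033, 106466, 14, 24, 30⟩,
    ⟨36120000, 36250000, 100000, 790000, 3300000, 80213200, 79155000, 238216276, 331004, 735875, 10, 17, 21⟩]

lemma box3_0_ok : (⟨35880000, 36000000, 0, 100000, 3000000, 81101200, 80110000, 239589166, 306378, 106471, 14, 24, 30⟩ : Box).check = true := by decide +kernel

lemma box3_1_ok : (⟨35880000, 36000000, 100000, 270000, 3000000, 81101200, 80110000, 239408059, 306376, 181107, 10, 17, 21⟩ : Box).check = true := by decide +kernel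

lemma box3_2_ok : (⟨36000000, 36120000, 0, 100000, 3000000, 81190000, 80213200, 239283184, 305982, 106469, 14, 24, 30⟩ : Box).check = true := by decide +kernel

lemma box3_3_ok : (⟨36000000, 36120000, 100000, 790000, 3000000, 81190000, 80213200, 238547280, 305964, 735904, 10, 17, 21⟩ : Box).check = true := by decide +kernel

lemma box3_4_ok : (⟨36120000, 36250000, 0, 100000, 3000000, 80213200, 79155000, 238952151, 331033, 106466, 14, 24, 30⟩ : Box).check = true := by decide +kernel

lemma box3_5_ok : (⟨36120000, 36250000, 100000, 790000, 3300000, 80213200, 79155000, 238216276, 331004, 735875, 10, 17, 21⟩ : Box).check = true := by decide +kernel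

lemma boxes3_ok : boxes3.all Box.check = true := by
  simp [boxes3, box3_0_ok, box3_1_ok, box3_2_ok, box3_3_ok, box3_4_ok, box3_5_ok]

end Vale.Agent.P232.Kappa
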