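import Vale.Agent.P232.Endpoint.KappaCheck

/-!
Boxes of the weighted certificate, part C, checked in the kernel.
-/

namespace Vale.Agent.P232.Kappa

/-- Boxes, part 4. -/
def boxes4 : List Box :=
  [⟨36250000, 36500000, 0, 100000, 3300000, 79155000, 77120000, 238316871, 635280, 106457, 14, 24, 30⟩,
    ⟨36250000, 36500000, 100000, 790000, 3599999, 79155000, 77120000, 237581073, 635203, 735798, 10, 17, 21⟩,
    ⟨36500000, 36750000, 0, 100000, 3599999, 77980000, 75987500, 237683347, 633524, 106444, 14, 24, 30⟩,
    ⟨36500000, 36750000, 100000, 790000, 3599999, 77980000, 75987500, 236947654, 633419, 735693, 10, 17, 21⟩,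
    ⟨36750000, 37000000, 0, 100000, 4000000, 75987500, 73995000, 237051597, 631750, 106427, 14, 24, 30⟩,
    ⟨36750000, 37000000, 100000, 790000, 4000000, 75987500, 73995000, 236316037, 631617, 735560, 10, 17, 21⟩]

lemma box4_0_ok : (⟨36250000, 36500000, 0, 100000, 3300000, 79155000, 77120000, 238316871, 635280, 106457, 14, 24, 30⟩ : Box).check = true := by decide +kernel

lemma box4_1_ok : (⟨36250000, 36500000, 100000, 790000, 3599999, 79155000, 77120000, 237581073, 635203, 735798, 10, 17, 21⟩ : Box).check = true := by decide +kernel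

lemma box4_2_ok : (⟨36500000, 36750000, 0, 100000, 3599999, 77980000, 75987500, 237683347, 633524, 106444, 14, 24, 30⟩ : Box).check = true := by decide +kernel

lemma box4_3_ok : (⟨36500000, 36750000, 100000, 790000, 3599999, 77980000, 75987500, 236947654, 633419, 735693, 10, 17, 21⟩ : Box).check = true := by decide +kernel

lemma box4_4_ok : (⟨36750000, 37000000, 0, 100000, 4000000, 75987500, 73995000, 237051597, 631750, 106427, 14, 24, 30⟩ : Box).check = true := by decide +kernel

lemma box4_5_ok : (⟨36750000, 37000000, 100000, 790000, 4000000, 75987500, 73995000, 236316037, 631617, 735560, 10, 17, 21⟩ : Box).check = true := by decide +kernel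

lemma boxes4_ok : boxes4.all Box.check = true := by
  simp [boxes4, box4_0_ok, box4_1_ok, box4_2_ok, box4_3_ok, box4_4_ok, box4_5_ok]

/-- Boxes, part 5. -/
def boxes5 : List Box :=
  [⟨37000000, 37250000, 0, 100000, 4500000, 74820000, 72872500, 236421641, 629956, 106407, 14, 24, 30⟩,
    ⟨37000000, 37250000, 100000, 790000, 4500000, 74820000, 72872500, 235686241, 629796, 735400, 10, 17, 21⟩,
    ⟨37250000, 37500000, 0, 100000, 5000000, 72872500, 70925000, 235793496, 628145, 106381, 14, 24, 30⟩,
    ⟨37250000, 37500000, 100000, 790000, 5000000, 72872500, 70925000, 235058283, 627958, 735213, 10, 17, 21⟩,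
    ⟨37500000, 37750000, 0, 100000, 5000000, 71630000, 69730000, 235167178, 626318, 106353, 14, 24, 30⟩,
    ⟨37500000, 37750000, 100000, 790000, 5000000, 71630000, 69730000, 234432180, 626103, 734998, 10, 17, 21⟩]

lemma box5_0_ok : (⟨37000000, 37250000, 0, 100000, 4500000, 74820000, 72872500, 236421641, 629956, 106407, 14, 24, 30⟩ : Box).check = true := by decide +kernel

lemma box5_1_ok : (⟨37000000, 37250000, 100000, 790000, 4500000, 74820000, 72872500, 235686241, 629796, 735400, 10, 17, 21⟩ : Box).check = true := by decide +kernel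

lemma box5_2_ok : (⟨37250000, 37500000, 0, 100000, 5000000, 72872500, 70925000, 235793496, 628145, 106381, 14, 24, 30⟩ : Box).check = true := by decide +kernel

lemma box5_3_ok : (⟨37250000, 37500000, 100000, 790000, 5000000, 72872500, 70925000, 235058283, 627958, 735213, 10, 17, 21⟩ : Box).check = true := by decide +kernel

lemma box5_4_ok : (⟨37500000, 37750000, 0, 100000, 5000000, 71630000, 69730000, 235167178, 626318, 106353, 14, 24, 30⟩ : Box).check = true := by decide +kernel

lemma box5_5_ok : (⟨37500000, 37750000, 100000, 790000, 5000000, 71630000, 69730000, 234432180, 626103, 734998, 10, 17, 21⟩ : Box).check = true := by decide +kernel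

lemma boxes5_ok : boxes5.all Box.check = true := by
  simp [boxes5, box5_0_ok, box5_1_ok, box5_2_ok, box5_3_ok, box5_4_ok, box5_5_ok]

end Vale.Agent.P232.Kappa
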