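import Vale.Agent.P232.Endpoint.KappaCheck

/-!
Boxes of the weighted certificate, part D, checked in the kernel.
-/

namespace Vale.Agent.P232.Kappa

/-- Boxes, part 6. -/
def boxes6 : List Box :=
  [⟨37750000, 38000000, 0, 100000, 5800000, 69730000, 67830000, 234542707, 624471, 106320, 14, 24, 30⟩,
    ⟨37750000, 38000000, 100000, 790000, 5800000, 69730000, 67830000, 233807947, 624233, 734760, 10, 17, 21⟩,
    ⟨38000000, 38350000, 0, 100000, 5800000, 70520000, 68003500, 233671574, 871133, 106269, 14, 24, 30⟩,
    ⟨38000000, 38350000, 100000, 790000, 5800000, 70520000, 68003500, 232937189, 870758, 734385, 10, 17, 21⟩,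
    ⟨38350000, 38750000, 0, 790000, 6600000, 68003500, 65127500, 231946614, 990575, 840098, 10, 17, 21⟩,
    ⟨38750000, 39300000, 0, 790000, 8000000, 65127500, 61173000, 230592633, 1353981, 839225, 10, 17, 21⟩]

lemma box6_0_ok : (⟨37750000, 38000000, 0, 100000, 5800000, 69730000, 67830000, 234542707, 624471, 106320, 14, 24, 30⟩ : Box).check = true := by decide +kernel

lemma box6_1_ok : (⟨37750000, 38000000, 100000, 790000, 5800000, 69730000, 67830000, 233807947, 624233, 734760, 10, 17, 21⟩ : Box).check = true := by decide +kernel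

lemma box6_2_ok : (⟨38000000, 38350000, 0, 100000, 5800000, 70520000, 68003500, 233671574, 871133, 106269, 14, 24, 30⟩ : Box).check = true := by decide +kernel

lemma box6_3_ok : (⟨38000000, 38350000, 100000, 790000, 5800000, 70520000, 68003500, 232937189, 870758, 734385, 10, 17, 21⟩ : Box).check = true := by decide +kernel

lemma box6_4_ok : (⟨38350000, 38750000, 0, 790000, 6600000, 68003500, 65127500, 231946614, 990575, 840098, 10, 17, 21⟩ : Box).check = true := by decide +kernel

lemma box6_5_ok : (⟨38750000, 39300000, 0, 790000, 8000000, 65127500, 61173000, 230592633, 1353981, 839225, 10, 17, 21⟩ : Box).check = true := by decide +kernel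

lemma boxes6_ok : boxes6.all Box.check = true := by
  simp [boxes6, box6_0_ok, box6_1_ok, box6_2_ok, box6_3_ok, box6_4_ok, box6_5_ok]

/-- Boxes, part 7. -/
def boxes7 : List Box :=
  [⟨39300000, 40000000, 0, 790000, 8000000, 61173000, 56140000, 228883068, 1050102, 514701, 10, 17, 21⟩,
    ⟨40000000, 40800000, 0, 1010000, 9500000, 56130000, 51490000, 226714033, 1051832, 581594, 10, 17, 21⟩,
    ⟨40800000, 42000000, 0, 1010000, 11000000, 51490000, 44530000, 223851423, 927494, 345289, 10, 17, 21⟩,
    ⟨42000000, 43000000, 0, 1010000, 15000000, 44530000, 40240000, 221501930, 1131078, 511309, 10, 17, 21⟩,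
    ⟨43000000, 44000000, 0, 1010000, 15000000, 40240000, 35950000, 219185504, 1115158, 509399, 10, 17, 21⟩,
    ⟨44000000, 45000000, 0, 1050000, 15000000, 35950000, 31660000, 216860540, 1133056, 543769, 10, 17, 21⟩]

lemma box7_0_ok : (⟨39300000, 40000000, 0, 790000, 8000000, 61173000, 56140000, 228883068, 1050102, 514701, 10, 17, 21⟩ : Box).check = true := by decide +kernel

lemma box7_1_ok : (⟨40000000, 40800000, 0, 1010000, 9500000, 56130000, 51490000, 226714033, 1051832, 581594, 10, 17, 21⟩ : Box).check = true := by decide +kernel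

lemma box7_2_ok : (⟨40800000, 42000000, 0, 1010000, 11000000, 51490000, 44530000, 223851423, 927494, 345289, 10, 17, 21⟩ : Box).check = true := by decide +kernel

lemma box7_3_ok : (⟨42000000, 43000000, 0, 1010000, 15000000, 44530000, 40240000, 221501930, 1131078, 511309, 10, 17, 21⟩ : Box).check = true := by decide +kernel

lemma box7_4_ok : (⟨43000000, 44000000, 0, 1010000, 15000000, 40240000, 35950000, 219185504, 1115158, 509399, 10, 17, 21⟩ : Box).check = true := by decide +kernel

lemma box7_5_ok : (⟨44000000, 45000000, 0, 1050000, 15000000, 35950000, 31660000, 216860540, 1133056, 543769, 10, 17, 21⟩ : Box).check = true := by decide +kernel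

lemma boxes7_ok : boxes7.all Box.check = true := by
  simp [boxes7, box7_0_ok, box7_1_ok, box7_2_ok, box7_3_ok, box7_4_ok, box7_5_ok]

end Vale.Agent.P232.Kappa
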